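import Vale.Agent.P225.Assembly.Continuity.Param

/-!
P225, assembly: the blocks of one cluster depend continuously on coefficients and slot values.
-/

noncomputable section

namespace Vale.Agent.P225

open Matrix SU2 NormedSpace
open scoped ComplexOrder Matrix.Norms.L2Operator

namespace BlockCont

variable {d : PathData} {r₂ β φ₀ : ℝ} {X : Type*} [TopologicalSpace X] {J : ℕ} {p : X → Param}
  {c : ClusterData} {R i : ℕ}

theorem isUnit_list_prod {M : Type*} [Monoid M] {L : List M} (h : ∀ a ∈ L, IsUnit a) :
    IsUnit L.prod := by
  induction L with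
  | nil => simp
  | cons a L ih =>
    rw [List.prod_cons]
    exact (h a List.mem_cons_self).mul (ih fun b hb => h b (List.mem_cons_of_mem _ hb))

theorem isUnit_labDiag (a : Lbl → ℝ) : IsUnit (labDiag a) := by
  rw [isUnit_iff_isUnit_det, labDiag, det_diagonal, isUnit_iff_ne_zero]
  exact Finset.prod_ne_zero_iff.2 fun x _ =>
    Complex.ofReal_ne_zero.2 (Real.exp_pos _).ne'

/-- A monomial is invertible. -/
theorem isUnit_clusterMono (p : Param) : IsUnit (clusterMono d r₂ β p c i) := by
  refine (isUnit_list_prod fun m hm => ?_).mul (isUnit_labDiag _)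
  obtain ⟨k, -, rfl⟩ := List.mem_map.1 hm
  refine (isUnit_labDiag _).mul ?_
  cases hk : c.specs[k]? with
  | none => simp
  | some s =>
    obtain ⟨σ, hσ, -⟩ := c.spec.mono s (List.mem_of_getElem? hk)
    simpa using (isUnit_iff_isUnit_det _).2 (isUnit_det_of_left_inverse hσ)

theorem plan_gauge (hplan : d.plan (d.j₀ + i) = c.stagePlan R) {l : ℕ} (hl : l < c.len) :
    ∃ h : l < (d.plan (d.j₀ + i)).length,
      ((d.plan (d.j₀ + i))[l]).gauge = (c.stage ⟨l, hl⟩).spec.gauge := by
  have h : l < (d.plan (d.j₀ + i)).length := by simp [hplan, ClusterData.stagePlan, hl]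
  refine ⟨h, ?_⟩
  simp only [hplan, ClusterData.stagePlan, List.getElem_ofFn]

theorem continuous_clusterExp (hd : d.Good r₂ β φ₀) (hf : IsParFamily d J p)
    (hplan : d.plan (d.j₀ + i) = c.stagePlan R) :
    Continuous fun x => clusterExp d r₂ β (p x) c i := by
  refine continuous_pi fun k => continuous_pi fun t => ?_
  simp only [clusterExp]
  by_cases ht : t ∈ band
  swap
  · simp only [if_neg ht]
    exact continuous_const
  simp only [if_pos ht]
  refine continuous_const.add ?_
  by_cases h : k < c.len
  swap
  · simp only [dif_neg h]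
    exact continuous_const
  obtain ⟨hl, hG⟩ := plan_gauge hplan h
  simp only [dif_pos h]
  exact (ParamCont.continuous_stage hd hf i hl hG).2 t ht

theorem continuous_labDiag {a : X → Lbl → ℝ} (ha : Continuous a) :
    Continuous fun x => labDiag (a x) := by
  unfold labDiag
  exact (continuous_pi fun y =>
    Complex.continuous_ofReal.comp ((continuous_apply _).comp ha).neg.rexp).matrix_diagonal

theorem continuous_clusterMono (hd : d.Good r₂ β φ₀) (hf : IsParFamily d J p)
    (hplan : d.plan (d.j₀ + i) = c.stagePlan R) :
    Continuous fun x => clusterMono d r₂ β (p x) c i := by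
  have ha := continuous_clusterExp hd hf hplan
  unfold clusterMono clusterProd
  exact (continuous_list_prod _ fun k _ =>
      (continuous_labDiag ((continuous_apply k).comp ha)).mul continuous_const).mul
    (continuous_labDiag ((continuous_apply _).comp ha))

theorem continuous_clusterMono_inv (hd : d.Good r₂ β φ₀) (hf : IsParFamily d J p)
    (hplan : d.plan (d.j₀ + i) = c.stagePlan R) :
    Continuous fun x => (clusterMono d r₂ β (p x) c i)⁻¹ := by
  refine continuous_iff_continuousAt.2 fun x => ?_
  refine (continuousAt_matrix_inv _ ?_).comp (continuous_clusterMono hd hf hplan).continuousAt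
  rw [Ring.inverse_eq_inv']
  exact continuousAt_inv₀
    ((isUnit_iff_isUnit_det _).1 (isUnit_clusterMono (p x))).ne_zero

theorem continuous_extBlk_tgt (s : StageSpec) {z : X → ℂ} (hz : Continuous z) (q : ℕ × ℕ) :
    Continuous fun x => extBlk (s.tgt (z x)) q := by
  have h : Continuous fun x => s.tgt (z x) :=
    continuous_const.add (s.N.continuous_of_finiteDimensional.comp hz)
  unfold extBlk
  split_ifs with hq
  · exact (continuous_apply (⟨q, hq⟩ : bandBlocks s.gauge)).comp h
  · exact continuous_const

theorem continuous_idealFun (hd : d.Good r₂ β φ₀) (hf : IsParFamily d J p)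
    (hplan : d.plan (d.j₀ + i) = c.stagePlan R) (K : ℕ) {z : X → ℕ → ℂ}
    (hz : ∀ l, Continuous fun x => z x l) (l : ℕ) :
    Continuous fun x => idealFun d r₂ β (p x) c K i (z x) l := by
  unfold idealFun
  split_ifs with hl
  swap
  · exact continuous_const
  obtain ⟨hl', hG⟩ := plan_gauge hplan hl
  refine continuous_pi fun u => continuous_pi fun v => ?_
  simp only [idealSeg]
  split_ifs with hu hv
  · refine ((Complex.continuous_ofReal.comp (continuous_const.sub
      ((ParamCont.continuous_stage hd hf i hl' hG).2 _ hu)).rexp).mul ?_).mul continuous_const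
    exact ParamCont.continuous_gaugeEntry (continuous_extBlk_tgt _ (hz l))
  · exact continuous_const
  · exact continuous_const
  · exact (ParamCont.continuous_segBack hd hf (K + 40) i hl').matrix_elem u v

theorem continuous_segProd {n : Type*} [Fintype n] [DecidableEq n] {Q : X → ℕ → Op n}
    (hQ : ∀ l, Continuous fun x => Q x l) (k m : ℕ) :
    Continuous fun x => segProd (Q x) k m := by
  induction m with
  | zero => exact continuous_const
  | succ m ih =>
    simp only [segProd]
    split_ifs
    · exact ih.mul (hQ m)
    · exact continuous_const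

theorem continuous_rawMap (hd : d.Good r₂ β φ₀) (hf : IsParFamily d J p)
    (hplan : d.plan (d.j₀ + i) = c.stagePlan R) (K : ℕ) {z : X → ℕ → ℂ}
    (hz : ∀ l, Continuous fun x => z x l) :
    Continuous fun x => rawMap d r₂ β (p x) c K i (z x) := by
  have hQ := continuous_idealFun hd hf hplan K hz
  refine (continuous_segProd hQ 0 c.len).sub (continuous_finsetSum _ fun l hl => ?_)
  obtain ⟨hl', -⟩ := plan_gauge hplan (Finset.mem_range.1 hl)
  refine ((ParamCont.continuous_truncBack hd hf (K + 40) ?_ ?_).mul
    (ParamCont.continuous_segErr hd hf K i hl')).mul (continuous_segProd hQ l c.len)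
  · exact Trunc.startTime_le hd (Trunc.clusterStart_ge hd i)
  · exact Trunc.clusterStart_le_stageStart hd hl'.le

end BlockCont

end Vale.Agent.P225
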