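import Vale.Agent.P225.Assembly.Ideal

/-!
P225, assembly: the truncated systems depend continuously on coefficients of which only finitely
many clusters vary.
-/

noncomputable section

namespace Vale.Agent.P225

open Matrix SU2 Set Filter Topology
open scoped ComplexOrder Matrix.Norms.L2Operator

/-- Coefficients in the box, depending continuously on `x`, not at all from cluster `J` on. -/
structure IsParFamily (d : PathData) {X : Type*} [TopologicalSpace X] (J : ℕ) (p : X → Param) :
    Prop where
  box : ∀ x, InBox d (p x)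
  cont : ∀ i l k, Continuous fun x => p x i l k
  tail : ∀ x y i, J ≤ i → p x i = p y i

namespace ParamCont

variable {d : PathData} {r₂ β φ₀ : ℝ} {X : Type*} [TopologicalSpace X] {J : ℕ} {p : X → Param}

theorem continuous_gaugeEntry {G : Fin 3} {x y : Pnt} {F : X → ∀ q, BlkMat q}
    (h : ∀ q, Continuous fun z => F z q) : Continuous fun z => gaugeEntry G (F z) x y := by
  unfold gaugeEntry
  split_ifs
  · exact continuous_finsetSum _ fun u _ => continuous_finsetSum _ fun v _ =>
      (continuous_const.fun_mul ((h (blkLab G x)).matrix_elem u v)).fun_mul continuous_const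
  · exact continuous_const

theorem continuous_gaugeMat {K : ℕ} {G : Fin 3} {F : X → ∀ q, BlkMat q}
    (h : ∀ q, Continuous fun z => F z q) : Continuous fun z => gaugeMat K G (F z) :=
  continuous_pi fun _ => continuous_pi fun _ => continuous_gaugeEntry h

/-- Jointly continuous in the coefficients and the time. -/
theorem continuous_truncOp (hd : d.Good r₂ β φ₀) (hf : IsParFamily d J p) (K : ℕ) :
    Continuous fun z : X × ℝ => truncOp d (p z.1) K z.2 := by
  rw [← continuousOn_univ, ← univ_prod_univ]
  refine continuousOn_of_eventually_dist_le (F := fun x t => truncOp d (p x) K t)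
    (fun x => (truncOp_spec hd (hf.box x) K).1.continuousOn) fun x₀ ε hε => ?_
  have hall : ∀ᶠ x in 𝓝 x₀, ∀ i : Fin J, ∀ l : Fin (d.plan (d.j₀ + i)).length,
      ∀ t ∈ Icc (stageStart d i l) (stageStart d i (l + 1)),
        ‖Trunc.stageMat d (d.plan (d.j₀ + i))[(l : ℕ)] (p x i l) i (stageStart d i l) K t -
          Trunc.stageMat d (d.plan (d.j₀ + i))[(l : ℕ)] (p x₀ i l) i (stageStart d i l) K t‖ ≤ ε :=
    eventually_all.2 fun i => eventually_all.2 fun l =>
      eventually_dist_le isCompact_Icc
        (F := fun x t =>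
          Trunc.stageMat d (d.plan (d.j₀ + i))[(l : ℕ)] (p x i l) i (stageStart d i l) K t)
        (continuous_gaugeMat (K := K) (G := ((d.plan (d.j₀ + i))[(l : ℕ)]).gauge)
          (F := fun z : X × ℝ => linkOp (stageQ (d.plan (d.j₀ + i))[(l : ℕ)] (speed (d.j₀ + i))
            (d.scale z.2) (p z.1 i l) (speed (d.j₀ + i) * (z.2 - stageStart d i l))))
          fun q => StageCont.continuous_stageOp hd i l.isLt p hf.box (hf.cont i l) q).continuousOn
        x₀ hε
  filter_upwards [hall] with x hx t _
  show ‖Trunc.pathMat d (p x) K t - Trunc.pathMat d (p x₀) K t‖ ≤ ε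
  by_cases hex : ∃ il, InStage d t il
  · obtain ⟨⟨i, l⟩, hl, h1, h2⟩ := hex
    rw [(Trunc.pathMat_stage hd (p x) hl ⟨h1, h2⟩).1,
      (Trunc.pathMat_stage hd (p x₀) hl ⟨h1, h2⟩).1]
    rcases lt_or_ge i J with hi | hi
    · exact hx ⟨i, hi⟩ ⟨l, hl⟩ t ⟨h1, h2.le⟩
    · rw [hf.tail x x₀ i hi, sub_self, norm_zero]
      exact hε.le
  · rw [(Trunc.pathMat_outside hd (p x) fun il h => hex ⟨il, h⟩).1,
      (Trunc.pathMat_outside hd (p x₀) fun il h => hex ⟨il, h⟩).1, sub_self, norm_zero]
    exact hε.le

theorem continuousOn_truncW (hd : d.Good r₂ β φ₀) (hf : IsParFamily d J p) (K : ℕ) (b : ℝ) :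
    ContinuousOn (fun z : X × ℝ => truncW d r₂ β (p z.1) K z.2)
      (univ ×ˢ Icc (startTime r₂) b) :=
  riccati_param (fun x => truncOp d (p x) K) (continuous_truncOp hd hf K)
    (Trunc.pathDamp_cont hd).continuousOn (fun x => truncW d r₂ β (p x) K)
    (fun x => ((truncW_spec hd (hf.box x) K).2 b).1)
    (fun x => ((truncW_spec hd (hf.box x) K).2 b).2)
    (continuous_const.congr fun x => ((truncW_spec hd (hf.box x) K).1).symm)

theorem continuous_truncW (hd : d.Good r₂ β φ₀) (hf : IsParFamily d J p) (K : ℕ) {t : ℝ}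
    (ht : startTime r₂ ≤ t) : Continuous fun x => truncW d r₂ β (p x) K t :=
  (continuousOn_truncW hd hf K t).comp_continuous (f := fun x => (x, t))
    (continuous_id.prodMk continuous_const) fun _ => ⟨trivial, ht, le_rfl⟩

theorem continuousOn_truncBack (hd : d.Good r₂ β φ₀) (hf : IsParFamily d J p) (K : ℕ) {a : ℝ}
    (ha : startTime r₂ ≤ a) (b : ℝ) :
    ContinuousOn (fun z : X × ℝ => truncBack d r₂ β (p z.1) K a z.2) (univ ×ˢ Icc a b) :=
  back_param (fun x => truncW d r₂ β (p x) K) (fun x => truncBack d r₂ β (p x) K a)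
    ((continuousOn_truncW hd hf K b).mono
      (prod_mono (subset_refl _) (Icc_subset_Icc_left ha)))
    fun x => truncBack_spec hd (hf.box x) K ha b

theorem continuous_truncBack (hd : d.Good r₂ β φ₀) (hf : IsParFamily d J p) (K : ℕ) {a t : ℝ}
    (ha : startTime r₂ ≤ a) (hat : a ≤ t) : Continuous fun x => truncBack d r₂ β (p x) K a t :=
  (continuousOn_truncBack hd hf K ha t).comp_continuous (f := fun x => (x, t))
    (continuous_id.prodMk continuous_const) fun _ => ⟨trivial, hat, le_rfl⟩

theorem continuous_segBack (hd : d.Good r₂ β φ₀) (hf : IsParFamily d J p) (K i : ℕ) {l : ℕ}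
    (hl : l < (d.plan (d.j₀ + i)).length) :
    Continuous fun x => segBack d r₂ β (p x) K i l (segEnd d i l) := by
  have hV := riccati_param (fun x => truncOp d (p x) K) (continuous_truncOp hd hf K)
    (Trunc.pathDamp_cont hd).continuousOn (fun x => segRef d r₂ β (p x) K i l)
    (fun x => (segRef_spec hd (hf.box x) K i hl).2.1)
    (fun x => (segRef_spec hd (hf.box x) K i hl).2.2.1)
    (continuous_const.congr fun x => ((segRef_spec hd (hf.box x) K i hl).1).symm)
  exact (back_param (fun x => segRef d r₂ β (p x) K i l) (fun x => segBack d r₂ β (p x) K i l) hV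
      fun x => (segRef_spec hd (hf.box x) K i hl).2.2.2).comp_continuous
    (f := fun x => (x, segEnd d i l)) (continuous_id.prodMk continuous_const)
    fun _ => ⟨trivial, Trunc.seg_le hd hl, le_rfl⟩

/-- A parametric integral over a segment. -/
theorem continuous_segG {K : ℕ} {e : ℝ → ℝ}
    {F H : X → ℝ → Op (PntK K)} {a b : ℝ} (hab : a ≤ b) (he : Continuous e)
    (hF : ContinuousOn (fun z : X × ℝ => F z.1 z.2) (univ ×ˢ Icc a b))
    (hH : ContinuousOn (fun z : X × ℝ => H z.1 z.2) (univ ×ˢ Icc a b)) :
    Continuous fun x => segG e (F x) (H x) a b := by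
  set c : ℝ → ℝ := fun u => (projIcc a b hab u : ℝ)
  have hc : Continuous c := continuous_subtype_val.comp continuous_projIcc
  have hm : ∀ z : X × ℝ, (z.1, c z.2) ∈ (univ : Set X) ×ˢ Icc a b := fun z =>
    ⟨trivial, (projIcc a b hab z.2).2⟩
  have hz : Continuous fun z : X × ℝ => (z.1, c z.2) :=
    continuous_fst.prodMk (hc.comp continuous_snd)
  have hg : Continuous (Function.uncurry fun x u => e u • (F x (c u) * H x (c u))) :=
    (he.comp continuous_snd).smul
      ((hF.comp_continuous hz hm).mul (hH.comp_continuous hz hm))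
  refine (intervalIntegral.continuous_parametric_intervalIntegral_of_continuous'
    (μ := MeasureTheory.volume) hg a b).congr fun x => intervalIntegral.integral_congr fun u hu =>
      ?_
  rw [uIcc_of_le hab] at hu
  simp only [c, projIcc_of_mem hab hu]

theorem continuous_segErr (hd : d.Good r₂ β φ₀) (hf : IsParFamily d J p) (K i : ℕ) {l : ℕ}
    (hl : l < (d.plan (d.j₀ + i)).length) :
    Continuous fun x => segErr d r₂ β (p x) K i l := by
  have hs := (Trunc.seg_times hd hl).2.2.2.2
  have he : Continuous fun u => Real.exp (-∫ w in segStart d i l..u, pathDamp d w) :=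
    (intervalIntegral.continuous_primitive
      (fun u v => (Trunc.pathDamp_cont hd).intervalIntegrable u v) _).neg.rexp
  have hR := continuousOn_truncBack hd hf (K + 40) hs (segEnd d i l)
  exact (continuous_segG (Trunc.seg_le hd hl) he hR hR.star).mul
    ((continuous_truncW hd hf (K + 40) hs).sub continuous_const)

/-- Every block of the interaction map has positive determinant. -/
theorem stageInter_det (hd : d.Good r₂ β φ₀) {p : Param} (hp : InBox d p) (i : ℕ) {l : ℕ}
    (hl : l < (d.plan (d.j₀ + i)).length) (G : Fin 3) (q : bandBlocks G) :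
    0 < ((stageInter d r₂ β p G i l) q).det.re := by
  set g : Lbl → ℝ := fun t => freeDecay d r₂ β (ctrlStart d i l) (segEnd d i l) t
  obtain ⟨-, hV, hVp, R, hR, hRb⟩ := Band.blkRef_spec hd hp i hl G q.1
  have h1 := Band.back_det_pos (Band.ctrl_mem hd hl).2.1 (Trunc.riccati_cont hV)
    (fun t ht => (hVp t ht).isHermitian) hR
  rw [hRb] at h1
  have h2 : 0 < (diagBlkFun G (fun t => Real.exp (g t)) q.1).det := by
    refine lt_of_le_of_ne ((Band.diagBlkFun_psd G q.1
      fun t => (Real.exp_pos (g t)).le).det_nonneg) (Ne.symm fun h0 => ?_)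
    have h := congrArg Matrix.det (Band.diagBlk_exp_inv q.1 fun v => g (gaugeTriple G q.1 v))
    rw [Band.diagBlkFun_eq] at h0
    rw [Matrix.det_mul, Matrix.det_one, h0, zero_mul] at h
    exact zero_ne_one h
  have h3 := mul_pos h1 h2
  rw [← Matrix.det_mul] at h3
  exact (Complex.lt_def.1 h3).1

/-- The normalised map of a stage and its logarithmic factor. -/
theorem continuous_stage (hd : d.Good r₂ β φ₀) (hf : IsParFamily d J p) (i : ℕ) {l : ℕ}
    (hl : l < (d.plan (d.j₀ + i)).length) {G : Fin 3}
    (hG : ((d.plan (d.j₀ + i))[l]).gauge = G) :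
    Continuous (fun x => stageNorm d r₂ β (p x) G i l) ∧
      ∀ t ∈ band, Continuous fun x => stageShift d r₂ β (p x) G i l t := by
  subst hG
  exact stageNorm_continuous hd i hl p hf.box (hf.cont i l) fun x =>
    stageInter_det hd (hf.box x) i hl _

end ParamCont

end Vale.Agent.P225
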